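import Vale.Agent.P076.H307.QD2

/-!
# P076 / BG.QD : quantitative differentiation, the statement `StQD` of `BG/Defs.lean` (helper307)
-/

set_option autoImplicit false

namespace Vale.Agent.P076.H307

theorem qd : ∀ η : ℝ, 0 < η → ∃ (h0 κ : ℝ) (K0 : ℕ), 0 < h0 ∧ 0 < κ ∧ ∀ (K : ℕ) (e : ℕ → ℝ) (D : ℕ → ℕ → ℝ), K0 ≤ K →
  0 ≤ e 0 →
  (∀ s s', s ≤ s' → s' ≤ 2 * K → e s ≤ e s') → (∀ s s', s ≤ s' → s' ≤ 2 * K → e s' - e s ≤ 3 * ((s' : ℝ) - s) / K + κ) →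
  (∀ s, s ≤ 2 * K → e s ≤ 2 * s / K + κ) → 3 ≤ e (2 * K) →
  (∀ d s, d ≤ K → s ≤ 2 * K → 0 ≤ D d s ∧ D d s ≤ 2 * d / K + κ) →
  (∀ d s s', d ≤ K → s ≤ s' → s' ≤ 2 * K → D d s ≤ D d s') →
  (∀ b h r : ℕ, b ≤ K → h ≤ b → 2 * r ≤ h → κ < e (2 * b) - e (2 * b - 2 * r) →
    ((h : ℝ) - 6 * r) / K - κ ≤ e (2 * b) - e (2 * b - h)) →
  ∃ (w s : ℕ) (ρ : ℝ), h0 * K ≤ w ∧ 4 * w ≤ s ∧ s ≤ 2 * K ∧ 3 / 10 ≤ ρ ∧ ρ ≤ 17 / 20 ∧
    (∀ s', s - w ≤ s' → s' ≤ s → |e s' - e (s - w) - 3 * ρ * ((s' : ℝ) - (s - w : ℕ)) / K| ≤ η * w / K) ∧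
    D w s - D w (s - w) ≤ η * w / K := by
  intro η hη
  obtain ⟨h0, κ, K0, h0p, κp, H⟩ := qdf hη
  refine ⟨h0, κ, K0 + 1, h0p, κp, fun K e D hK e0 mono lip gr top hD Dm J => ?_⟩
  have hK1 : 0 < K := by omega
  have hKR : (0:ℝ) < K := by exact_mod_cast hK1
  obtain ⟨w, s, ρ, h1, h2, h3, h4, h5, h6, h7⟩ := H K (fun s => K * e s) (fun d s => K * D d s) (by omega)
    (by positivity)
    (fun s s' a b => by have := mono s s' a b; gcongr)
    (fun s s' a b => by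
      have := mul_le_mul_of_nonneg_left (lip s s' a b) hKR.le
      have e1 : (K:ℝ) * (3 * ((s' : ℝ) - s) / K + κ) = 3 * ((s' : ℝ) - s) + κ * K := by field_simp
      rw [e1] at this; linarith)
    (fun s a => by
      have := mul_le_mul_of_nonneg_left (gr s a) hKR.le
      have e1 : (K:ℝ) * (2 * s / K + κ) = 2 * s + κ * K := by field_simp
      rw [e1] at this; linarith)
    (by have := mul_le_mul_of_nonneg_left top hKR.le
        linarith)
    (fun d s a b => mul_nonneg hKR.le (hD d s a b).1)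
    (fun d s a b => by
      have := mul_le_mul_of_nonneg_left (hD d s a b).2 hKR.le
      have e1 : (K:ℝ) * (2 * d / K + κ) = 2 * d + κ * K := by field_simp
      rw [e1] at this; linarith)
    (fun d s s' a b c => by have := Dm d s s' a b c; gcongr)
    (fun b h r h1 h2 h3 h4 => by
      have h5 : κ < e (2 * b) - e (2 * b - 2 * r) := by
        have : K * κ < K * (e (2 * b) - e (2 * b - 2 * r)) := by linarith
        exact lt_of_mul_lt_mul_left this hKR.le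
      have := mul_le_mul_of_nonneg_left (J b h r h1 h2 h3 h5) hKR.le
      have e1 : (K:ℝ) * (((h : ℝ) - 6 * r) / K - κ) = (h : ℝ) - 6 * r - κ * K := by field_simp
      rw [e1] at this; linarith)
  refine ⟨w, s, ρ, h1, h2, by omega, h4, h5, fun s' a b => ?_, ?_⟩
  · have h8 := h6 s' a b
    have e1 : K * e s' - K * e (s - w) - 3 * ρ * ((s' : ℝ) - (s - w : ℕ)) =
        K * (e s' - e (s - w) - 3 * ρ * ((s' : ℝ) - (s - w : ℕ)) / K) := by field_simp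
    have h9 : |(K:ℝ) * (e s' - e (s - w) - 3 * ρ * ((s' : ℝ) - (s - w : ℕ)) / K)| ≤ η * w := by
      rw [← e1]; exact h8
    rw [abs_mul, abs_of_pos hKR] at h9
    rw [le_div_iff₀ hKR]; linarith
  · rw [le_div_iff₀ hKR]
    have h7' : (K:ℝ) * D w s - K * D w (s - w) ≤ η * w := h7
    linarith

end Vale.Agent.P076.H307
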