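import Vale.Agent.P122.H518.E12
import Vale.Agent.P076.NS.Geo

/-!
# P076 / BG.NUM : the criticality numbers of a regular system of flags (helper307)
-/

set_option autoImplicit false

namespace Vale.Agent.P076.H307

open Filter Topology Finset Vale.Agent.P127 Vale.Agent.P127.Stk Vale.Agent.P127.U Vale.Agent.P127.U.Sys
  Vale.Agent.P122.C2 Vale.Agent.P122.E Vale.Agent.P076.NS Vale.Agent.P122.H518

section

variable {K : ℕ} {F : Flg K} {J θ H : ℕ → ℝ}

/-- sum of the steps `2 / K - tc c` over an interval of levels is at most the growth of `E` -/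
theorem En_ge (h : Cts F.S K F.N F.Y F.T F.sg H J θ) {d : ℕ} (hd : d ≤ K) :
    ∑ c ∈ Ico d K, (2 / (K : ℝ) - tc F c) ≤ Cts.En K H J θ K - Cts.En K H J θ d := by
  have key : ∀ m, d ≤ m → m ≤ K →
      ∑ c ∈ Ico d m, (2 / (K : ℝ) - tc F c) ≤ Cts.En K H J θ m - Cts.En K H J θ d := by
    intro m hm
    induction m, hm using Nat.le_induction with
    | base => intro _; simp
    | succ m hdm ih =>
      intro hmK
      have h1 := ih (by omega)
      have h2 := h.En_sub (Nat.le_succ m) hmK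
      have h3 := h.Cn_ge (Nat.le_succ m) hmK
      rw [sum_Ico_succ_top hdm]
      have h4 : Cts.Dn F.S K F.N F.T m (m + 1) = 2 / (K : ℝ) - tc F m := by
        unfold Cts.Dn tc
        push_cast
        ring
      rw [Nat.succ_eq_add_one] at h2 h3
      rw [h4] at h2
      linarith
  exact key K hd le_rfl

theorem sum_steps (hK : 1 ≤ K) {d : ℕ} (hd : d ≤ K) (t : ℕ → ℝ) :
    ∑ c ∈ Ico d K, (2 / (K : ℝ) - t c) = 2 - 2 * d / K - (∑ c ∈ range K, t c - ∑ c ∈ range d, t c) := by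
  have hK' : (K : ℝ) ≠ 0 := by positivity
  have h3 := sum_range_add_sum_Ico t hd
  rw [sum_sub_distrib, sum_const, Nat.card_Ico, nsmul_eq_mul, Nat.cast_sub hd]
  have : ((K : ℝ) - d) * (2 / K) = 2 - 2 * d / K := by field_simp
  rw [this]
  linarith

theorem En_K (hK : 1 ≤ K) : Cts.En K H J θ K =
    4 - (H 0 + ∑ k ∈ range K, J k - H K) - 2 * ∑ k ∈ range K, θ k := by
  have hK' : (K : ℝ) ≠ 0 := by positivity
  unfold Cts.En
  have : 4 * (K : ℝ) / K = 4 := by field_simp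
  rw [this]

end

variable {K : ℕ} {F : Flg K} {J θ H e : ℕ → ℝ} {W : ℕ → F.S.BX} {kk jj : ℕ → ℕ → ℕ}

theorem h_x (hK : 1 ≤ K) (R : RegA F J θ H e W kk jj) : F.S.h F.x = H 0 :=
  (cts hK R).hN 0 (Nat.zero_le K)

/-- [NUM], broad gain -/
theorem num_bg (hK : 1 ≤ K) (R : RegA F J θ H e W kk jj) {c1 κ : ℝ} (hκ : 0 ≤ κ) (hT : TG0 F c1)
    (h1 : 10 / 3 - κ ≤ H 0 + ∑ c ∈ range K, J c - H K + 2 * ∑ c ∈ range K, θ c)
    (h2 : 3 * ∑ c ∈ range K, tc F c ≤ F.S.h F.x + κ) (h3 : F.S.h F.x ≤ 4 + κ)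
    (h4 : ∀ s, s ≤ 2 * K → F.S.hc F.x (bl F s) ≤ 2 * s / K + κ) : TGH F c1 (3 * κ) := by
  have h := cts hK R
  have e0 := En_K (H := H) (J := J) (θ := θ) hK
  refine { toTG0 := hT, I4 := ?_, gr := ?_, I5 := ?_ }
  · have a1 := En_ge h (Nat.zero_le K)
    rw [sum_steps hK (Nat.zero_le K), e0, Cts.En_zero] at a1
    simp only [range_zero, sum_empty, Nat.cast_zero, mul_zero, zero_div] at a1
    linarith
  · intro s hs
    have := h4 s hs
    linarith
  · intro d hd
    have a1 := En_ge h hd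
    rw [sum_steps hK hd, e0] at a1
    have a2 := h.hc_x_N hd
    have a3 : Cts.En K H J θ d = 4 * (d : ℝ) / K - (H 0 + ∑ k ∈ range d, J k - H d) - 2 * ∑ k ∈ range d, θ k := rfl
    rw [← a2] at a3
    have a4 : 2 * ∑ k ∈ range d, θ k ≤ ∑ k ∈ range d, J k := by
      rw [mul_sum]
      exact sum_le_sum fun k hk => R.L k (by rw [mem_range] at hk; omega)
    have a5 : ∑ k ∈ range d, J k ≤ F.S.hc (F.Y d) F.x := by
      have b1 := (e1 F J θ H e W kk jj hK R).2.2.1 0 d (Nat.zero_le d) hd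
      have b2 : nM J d - nM J 0 = ∑ k ∈ range d, J k := by simp [nM]
      rw [b2] at b1
      rw [← b1]
      exact hc_mono_right (h.tre.tY hd) (ffst _ _)
    have a6 : F.S.hc F.x (F.N d) = F.S.hc (F.N 0) (F.N d) := rfl
    have e4 : 4 * (d : ℝ) / K = 2 * (2 * d / K) := by ring
    rw [a6]
    rw [e4] at a3
    linarith

/-- [NUM], broad estimate without gain -/
theorem num_tri (hK : 1 ≤ K) (R : RegA F J θ H e W kk jj) {ε : ℝ}
    (h1 : 3 + ε ≤ H 0 + 3 / 2 * (∑ c ∈ range K, J c + 2 * ∑ c ∈ range K, θ c - H K)) :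
    H 0 + 2 * ε ≤ 3 * ∑ c ∈ range K, tc F c := by
  have h := cts hK R
  have e0 := En_K (H := H) (J := J) (θ := θ) hK
  have a1 := En_ge h (Nat.zero_le K)
  rw [sum_steps hK (Nat.zero_le K), e0, Cts.En_zero] at a1
  simp only [range_zero, sum_empty, Nat.cast_zero, mul_zero, zero_div] at a1
  linarith

end Vale.Agent.P076.H307
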