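import Mathlib

/-!
# P076 / BG.QD : from the pair counting inequality (J) to a stable near-linear window (helper307)
-/

set_option autoImplicit false

open Finset

namespace Vale.Agent.P076.H307

/-! ### flat below propagates upwards -/

/-- if the window `[2b - h, 2b]` is deficient then `f` is flat above `2b` -/
theorem flat_up {N h q T b : ℕ} {f : ℕ → ℝ} {ε : ℝ} (hε : 0 ≤ ε)
    (mono : ∀ s s', s ≤ s' → s' ≤ 2 * N → f s ≤ f s')
    (lip : ∀ s s', s ≤ s' → s' ≤ 2 * N → f s' - f s ≤ 3 * ((s' : ℝ) - s) + ε)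
    (J : ∀ b h r : ℕ, b ≤ N → h ≤ b → 2 * r ≤ h → ε < f (2 * b) - f (2 * b - 2 * r) →
      (h : ℝ) - 6 * r - ε ≤ f (2 * b) - f (2 * b - h))
    (hb : 2 * h ≤ b) (hq : 2 * q ≤ h) (hT : b + T * q ≤ N)
    (hdef : f (2 * b) - f (2 * b - h) < h - 12 * q - (T + 3) * ε) :
    ∀ t, t ≤ T → f (2 * (b + t * q)) - f (2 * b) ≤ t * ε := by
  intro t
  induction t with
  | zero => intro _; simp
  | succ t ih =>
    intro ht
    have ih' := ih (by omega)
    have htN : b + (t + 1) * q ≤ N := le_trans (by gcongr) hT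
    have htN' : b + t * q ≤ N := le_trans (by gcongr; omega) hT
    have e1 : (t + 1) * q = t * q + q := by ring
    rw [e1] at htN ⊢
    set m := t * q with hm
    have htT : (t : ℝ) + 1 ≤ T := by exact_mod_cast ht
    have hnn : 0 ≤ f (2 * b) - f (2 * b - h) := by
      have := mono (2 * b - h) (2 * b) (by omega) (by omega)
      linarith
    have l1 := lip (2 * (b + m)) (2 * (b + (m + q))) (by omega) (by omega)
    push_cast at l1
    have key : f (2 * (b + (m + q))) - f (2 * (b + m)) ≤ ε := by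
      by_contra hcon
      push Not at hcon
      have h2 : 2 * (b + (m + q)) - 2 * q = 2 * (b + m) := by omega
      by_cases hc : 2 * m ≤ h
      · -- first regime: window with bottom 2b - h
        have := J (b + (m + q)) (h + 2 * (m + q)) q (by omega) (by omega) (by omega) (by rw [h2]; exact hcon)
        have h3 : 2 * (b + (m + q)) - (h + 2 * (m + q)) = 2 * b - h := by omega
        rw [h3] at this
        push_cast at this
        have hq0 : (0:ℝ) ≤ q := by positivity
        have hm0 : (0:ℝ) ≤ m := by positivity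
        have : (t + 1 : ℝ) * ε ≤ T * ε := by gcongr
        linarith
      · push Not at hc
        have := J (b + (m + q)) (h + 2 * q) q (by omega) (by omega) (by omega) (by rw [h2]; exact hcon)
        have h3 : 2 * (b + (m + q)) - (h + 2 * q) = 2 * (b + m) - h := by omega
        rw [h3] at this
        have h4 := mono (2 * b) (2 * (b + m) - h) (by omega) (by omega)
        push_cast at this
        have hq0 : (0:ℝ) ≤ q := by positivity
        have : (t + 1 : ℝ) * ε ≤ T * ε := by gcongr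
        linarith
    push_cast
    linarith

/-- every window is at least of slope `≈ 1` -/
theorem slope_ge {N h q b : ℕ} {f : ℕ → ℝ} {ε : ℝ} (hε : 0 ≤ ε)
    (mono : ∀ s s', s ≤ s' → s' ≤ 2 * N → f s ≤ f s')
    (lip : ∀ s s', s ≤ s' → s' ≤ 2 * N → f s' - f s ≤ 3 * ((s' : ℝ) - s) + ε)
    (gr : ∀ s, s ≤ 2 * N → f s ≤ 2 * s + ε) (top : 3 * (N : ℝ) ≤ f (2 * N))
    (J : ∀ b h r : ℕ, b ≤ N → h ≤ b → 2 * r ≤ h → ε < f (2 * b) - f (2 * b - 2 * r) →
      (h : ℝ) - 6 * r - ε ≤ f (2 * b) - f (2 * b - h))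
    (hb : 2 * h ≤ b) (hbN : 2 * b ≤ N) (hq1 : 1 ≤ q) (hqN : 100 * q ≤ h)
    (hε1 : ε * N ≤ q * q) :
    (h : ℝ) - 20 * q ≤ f (2 * b) - f (2 * b - h) := by
  by_contra hcon
  push Not at hcon
  set T := (N - b) / q with hTdef
  have hT1 : T * q ≤ N - b := Nat.div_mul_le_self _ _
  have hT2 : N - b < T * q + q := by
    have := Nat.lt_div_mul_add (a := N - b) (b := q) (by omega)
    simpa [hTdef] using this
  have hTN : T * q ≤ N := by omega
  have hq0 : (0:ℝ) < q := by exact_mod_cast hq1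
  -- T ε ≤ q
  have hTε : (T : ℝ) * ε ≤ q := by
    have h1 : (T : ℝ) * q ≤ N := by exact_mod_cast hTN
    have h2 : (T : ℝ) * q * ε ≤ q * q := by
      calc (T : ℝ) * q * ε ≤ N * ε := by gcongr
        _ = ε * N := by ring
        _ ≤ _ := hε1
    have h3 : q * ((T : ℝ) * ε) ≤ q * q := by linarith [h2, mul_comm ((T:ℝ)) (q : ℝ)] 
    exact le_of_mul_le_mul_left h3 hq0
  have hNq : (1:ℝ) * q ≤ N := by
    have : q ≤ N := by omega
    simpa using (by exact_mod_cast this : (q:ℝ) ≤ N)
  have hεq : ε ≤ q := by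
    have : ε * q ≤ q * q := le_trans (by gcongr; linarith) hε1
    exact le_of_mul_le_mul_right this hq0
  have hdef : f (2 * b) - f (2 * b - h) < h - 12 * q - (T + 3) * ε := by linarith
  have hfl := flat_up hε mono lip J hb (by omega) (T := T) (by omega) hdef T le_rfl
  have l1 := lip (2 * (b + T * q)) (2 * N) (by omega) le_rfl
  have g1 := gr (2 * b) (by omega)
  have hNT : (N : ℝ) - (b + T * q) ≤ q := by
    have : N ≤ b + T * q + q := by omega
    have : (N : ℝ) ≤ b + T * q + q := by exact_mod_cast this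
    linarith
  have hbN' : 2 * (b : ℝ) ≤ N := by exact_mod_cast hbN
  push_cast at l1 g1
  have hqN' : 100 * (q:ℝ) ≤ h := by exact_mod_cast hqN
  have hb' : 2 * (h : ℝ) ≤ b := by exact_mod_cast hb
  linarith

/-! ### energy increment -/

theorem sum_range_mul' (n M : ℕ) (g : ℕ → ℝ) :
    ∑ x ∈ range (n * M), g x = ∑ i ∈ range n, ∑ m ∈ range M, g (i * M + m) := by
  induction n with
  | zero => simp
  | succ n ih => rw [Nat.succ_mul, sum_range_add, ih, sum_range_succ]

/-- within-window variance -/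
theorem sum_sub_mean {M : ℕ} (hM : 0 < M) (b : ℕ → ℝ) (a : ℝ) (ha : ∑ m ∈ range M, b m = a) :
    ∑ m ∈ range M, (b m - a / M) ^ 2 = ∑ m ∈ range M, b m ^ 2 - a ^ 2 / M := by
  have hM' : (0:ℝ) < M := by exact_mod_cast hM
  have : ∀ m, (b m - a / M) ^ 2 = b m ^ 2 - 2 * (a / M) * b m + (a / M) ^ 2 := fun m => by ring
  simp_rw [this]
  rw [sum_add_distrib, sum_sub_distrib, ← mul_sum, ha]
  simp
  field_simp
  ring

/-- increments -/
def inc (f : ℕ → ℝ) (w i : ℕ) : ℝ := f ((i + 1) * w) - f (i * w)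

/-- energy of the tiling by `n` windows of length `w` -/
noncomputable def en (f : ℕ → ℝ) (w n : ℕ) : ℝ := ∑ i ∈ range n, inc f w i ^ 2 / w

/-- variance of the increments of length `w` inside the window number `i` of length `M w` -/
noncomputable def va (f : ℕ → ℝ) (M w i : ℕ) : ℝ := ∑ m ∈ range M, (inc f w (i * M + m) - inc f (M * w) i / M) ^ 2

theorem sum_inc (f : ℕ → ℝ) (M w i k : ℕ) :
    ∑ m ∈ range k, inc f w (i * M + m) = f ((i * M + k) * w) - f (i * M * w) := by
  induction k with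
  | zero => simp
  | succ k ih => rw [sum_range_succ, ih, inc]; ring_nf

theorem sum_inc' (f : ℕ → ℝ) (M w i : ℕ) :
    ∑ m ∈ range M, inc f w (i * M + m) = inc f (M * w) i := by
  rw [sum_inc, inc]; ring_nf

theorem en_refine (f : ℕ → ℝ) {M w : ℕ} (hM : 0 < M) (hw : 0 < w) (n : ℕ) :
    en f w (n * M) = en f (M * w) n + ∑ i ∈ range n, va f M w i / w := by
  have hw' : (0:ℝ) < w := by exact_mod_cast hw
  have hM' : (0:ℝ) < M := by exact_mod_cast hM
  rw [en, en, sum_range_mul', ← sum_add_distrib]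
  refine sum_congr rfl fun i _ => ?_
  rw [va, sum_sub_mean hM _ _ (sum_inc' f M w i), ← sum_div]
  push_cast
  field_simp
  ring

theorem va_nonneg (f : ℕ → ℝ) (M w i : ℕ) : 0 ≤ va f M w i := sum_nonneg fun _ _ => sq_nonneg _

/-- a window of small variance is linear at the points of the subgrid -/
theorem lin_grid (f : ℕ → ℝ) {M w i k : ℕ} (hk : k ≤ M) :
    |f ((i * M + k) * w) - f (i * M * w) - k * (inc f (M * w) i / M)| ≤ Real.sqrt (M * va f M w i) := by
  have h1 : f ((i * M + k) * w) - f (i * M * w) - k * (inc f (M * w) i / M) =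
      ∑ m ∈ range k, (inc f w (i * M + m) - inc f (M * w) i / M) := by
    rw [sum_sub_distrib, sum_inc]; simp
  rw [h1]
  refine Real.abs_le_sqrt ?_
  have h2 := sq_sum_le_card_mul_sum_sq (s := range k) (f := fun m => inc f w (i * M + m) - inc f (M * w) i / M)
  refine h2.trans ?_
  rw [card_range]
  have h3 : ∑ m ∈ range k, (inc f w (i * M + m) - inc f (M * w) i / M) ^ 2 ≤ va f M w i :=
    sum_le_sum_of_subset_of_nonneg (range_mono hk) fun _ _ _ => sq_nonneg _
  have h4 : (0:ℝ) ≤ ∑ m ∈ range k, (inc f w (i * M + m) - inc f (M * w) i / M) ^ 2 := sum_nonneg fun _ _ => sq_nonneg _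
  have h5 : (k : ℝ) ≤ M := by exact_mod_cast hk
  gcongr

/-- pigeonhole on the scales -/
theorem exists_scale (f : ℕ → ℝ) {M u N J : ℕ} (hM : 0 < M) (hu : 0 < u) (hJ : 0 < J) {B : ℝ}
    (hB : en f u (N * M ^ J) ≤ B) :
    ∃ j < J, ∑ i ∈ range (N * M ^ j), va f M (u * M ^ (J - (j + 1))) i / (u * M ^ (J - (j + 1)) : ℕ) ≤ B / J := by
  by_contra hcon
  push Not at hcon
  have hJ' : (0:ℝ) < J := by exact_mod_cast hJ
  have step : ∀ j < J, B / J + en f (u * M ^ (J - j)) (N * M ^ j) < en f (u * M ^ (J - (j + 1))) (N * M ^ (j + 1)) := by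
    intro j hj
    have h1 := en_refine f (M := M) (w := u * M ^ (J - (j + 1))) hM (by positivity) (N * M ^ j)
    have e1 : N * M ^ (j + 1) = N * M ^ j * M := by ring
    have e2 : M * (u * M ^ (J - (j + 1))) = u * M ^ (J - j) := by
      have : J - j = (J - (j + 1)) + 1 := by omega
      rw [this, pow_succ]; ring
    rw [e1, h1, e2]
    have h2 := hcon j hj
    push_cast
    push_cast at h2
    linarith
  have key : ∀ j < J, (j + 1 : ℕ) * (B / J) + en f (u * M ^ J) N < en f (u * M ^ (J - (j + 1))) (N * M ^ (j + 1)) := by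
    intro j
    induction j with
    | zero => intro h; have := step 0 h; simpa using this
    | succ j ih =>
      intro hj
      have ih' := ih (by omega)
      have h1 := step (j + 1) hj
      push_cast at ih' ⊢
      linarith
  have h3 := key (J - 1) (by omega)
  have e3 : J - 1 + 1 = J := by omega
  rw [e3] at h3
  simp only [Nat.sub_self, pow_zero, mul_one] at h3
  have h4 : (0:ℝ) ≤ en f (u * M ^ J) N := sum_nonneg fun _ _ => by positivity
  have h5 : (J : ℝ) * (B / J) = B := by field_simp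
  linarith

/-- pigeonhole on the windows of one scale -/
theorem exists_window (f G : ℕ → ℝ) {M w' n J : ℕ} {η : ℝ} (hη : 0 < η) (hM : 0 < M) (hw : 0 < w')
    (hJ : 1280 / η ^ 2 ≤ J) (hn : 100 + 20 / η ≤ n)
    (hV : ∑ i ∈ range n, va f M w' i / w' ≤ 16 * (n * (M * w')) / J)
    (hlow : ∀ i, 3 ≤ i → i < n → 9 / 10 * ((M * w' : ℕ) : ℝ) ≤ inc f (M * w') i)
    (hf0 : 0 ≤ f (3 * (M * w')))
    (hfn : f (n * (M * w')) ≤ 2 * (n * (M * w') : ℕ) + (M * w' : ℕ))
    (hG : ∀ s s', s ≤ s' → s' ≤ n * (M * w') → G s ≤ G s')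
    (hG0 : 0 ≤ G (3 * (M * w'))) (hGn : G (n * (M * w')) ≤ 3 * (M * w' : ℕ)) :
    ∃ i, 3 ≤ i ∧ i < n ∧ M * va f M w' i ≤ (η * (M * w' : ℕ) / 2) ^ 2 ∧
      inc f (M * w') i ≤ 5 / 2 * (M * w' : ℕ) ∧ G ((i + 1) * (M * w')) - G (i * (M * w')) ≤ η * (M * w' : ℕ) := by
  by_contra hcon
  push Not at hcon
  set w := M * w' with hwdef
  have hw0 : 0 < w := by positivity
  have hwR : (0:ℝ) < w := by exact_mod_cast hw0
  have hw'R : (0:ℝ) < w' := by exact_mod_cast hw
  have hMR : (0:ℝ) < M := by exact_mod_cast hM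
  have hwe : (w : ℝ) = M * w' := by push_cast [hwdef]; ring
  have hJ0 : (0:ℝ) < J := lt_of_lt_of_le (by positivity) hJ
  have hn0 : (100:ℝ) ≤ n := le_trans (by have : 0 < 20 / η := by positivity
                                         linarith) hn
  have hn3 : 3 ≤ n := by
    have : (3:ℝ) ≤ n := by linarith
    exact_mod_cast this
  set φ : ℕ → ℝ := fun i => M * va f M w' i * (4 / (η ^ 2 * w ^ 2)) + (inc f w i - 9 / 10 * w) * (1 / (8 / 5 * w)) +
    (G ((i + 1) * w) - G (i * w)) * (1 / (η * w)) with hφ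
  have hbad : ∀ i ∈ Ico 3 n, 1 ≤ φ i := by
    intro i hi
    rw [mem_Ico] at hi
    have t1 : 0 ≤ M * va f M w' i * (4 / (η ^ 2 * w ^ 2)) := by
      have := va_nonneg f M w' i
      positivity
    have t2 : 0 ≤ (inc f w i - 9 / 10 * w) * (1 / (8 / 5 * w)) := by
      have := hlow i hi.1 hi.2
      have h2 : 0 ≤ inc f w i - 9 / 10 * w := by linarith
      positivity
    have t3 : 0 ≤ (G ((i + 1) * w) - G (i * w)) * (1 / (η * w)) := by
      have := hG (i * w) ((i + 1) * w) (by gcongr; omega) (by gcongr; omega)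
      have h2 : 0 ≤ G ((i + 1) * w) - G (i * w) := by linarith
      positivity
    by_cases c1 : M * va f M w' i ≤ (η * w / 2) ^ 2
    · by_cases c2 : inc f w i ≤ 5 / 2 * w
      · have c3 := hcon i hi.1 hi.2 c1 c2
        have : 1 ≤ (G ((i + 1) * w) - G (i * w)) * (1 / (η * w)) := by
          rw [mul_one_div, le_div_iff₀ (by positivity)]
          linarith
        simp only [hφ]; linarith
      · push Not at c2
        have : 1 ≤ (inc f w i - 9 / 10 * w) * (1 / (8 / 5 * w)) := by
          rw [mul_one_div, le_div_iff₀ (by positivity)]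
          linarith
        simp only [hφ]; linarith
    · push Not at c1
      have : 1 ≤ M * va f M w' i * (4 / (η ^ 2 * w ^ 2)) := by
        rw [mul_div_assoc', le_div_iff₀ (by positivity)]
        linarith
      simp only [hφ]; linarith
  have hsum : ((n:ℝ) - 3) ≤ ∑ i ∈ Ico 3 n, φ i := by
    calc ((n:ℝ) - 3) = ∑ i ∈ Ico 3 n, (1:ℝ) := by
          rw [sum_const, Nat.card_Ico, nsmul_eq_mul, mul_one, Nat.cast_sub hn3]; norm_num
      _ ≤ _ := sum_le_sum hbad
  have e1 : ∑ i ∈ Ico 3 n, φ i = (∑ i ∈ Ico 3 n, va f M w' i) * (M * (4 / (η ^ 2 * w ^ 2))) +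
      ((∑ i ∈ Ico 3 n, inc f w i) - 9 / 10 * w * (n - 3)) * (1 / (8 / 5 * w)) +
      (∑ i ∈ Ico 3 n, (G ((i + 1) * w) - G (i * w))) * (1 / (η * w)) := by
    simp only [hφ]
    rw [sum_add_distrib, sum_add_distrib, ← sum_mul, ← sum_mul, ← sum_mul, ← mul_sum]
    congr 1
    congr 1
    · ring
    · rw [sum_sub_distrib, sum_const, Nat.card_Ico, nsmul_eq_mul, Nat.cast_sub hn3]
      push_cast
      ring
  have e2 : ∑ i ∈ Ico 3 n, inc f w i = f (n * w) - f (3 * w) := by
    have := sum_Ico_sub (fun i => f (i * w)) hn3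
    simpa [inc] using this
  have e3 : ∑ i ∈ Ico 3 n, (G ((i + 1) * w) - G (i * w)) = G (n * w) - G (3 * w) := by
    have := sum_Ico_sub (fun i => G (i * w)) hn3
    simpa using this
  have b1 : (∑ i ∈ Ico 3 n, va f M w' i) * (M * (4 / (η ^ 2 * w ^ 2))) ≤ n / 20 := by
    have h1 : ∑ i ∈ Ico 3 n, va f M w' i ≤ ∑ i ∈ range n, va f M w' i :=
      sum_le_sum_of_subset_of_nonneg (fun i hi => by simp at hi ⊢; omega) fun _ _ _ => va_nonneg _ _ _ _
    have h2 : ∑ i ∈ range n, va f M w' i ≤ w' * (16 * (n * w) / J) := by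
      rw [← sum_div, div_le_iff₀ hw'R] at hV
      rw [hwe]
      linarith
    calc (∑ i ∈ Ico 3 n, va f M w' i) * (M * (4 / (η ^ 2 * w ^ 2)))
        ≤ (w' * (16 * (n * w) / J)) * (M * (4 / (η ^ 2 * w ^ 2))) := by
          gcongr
          exact h1.trans h2
      _ = (64 / η ^ 2) * n / J := by
          rw [hwe]; field_simp; ring
      _ ≤ n / 20 := by
          rw [div_le_iff₀ hJ0]
          have : 64 / η ^ 2 ≤ J / 20 := by
            have : 64 / η ^ 2 = (1280 / η ^ 2) / 20 := by ring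
            rw [this]; gcongr
          have h5 := mul_le_mul_of_nonneg_right this (by linarith : (0:ℝ) ≤ n)
          linarith
  have b2 : ((f (n * w) - f (3 * w)) - 9 / 10 * w * (n - 3)) * (1 / (8 / 5 * w)) ≤ 11 / 16 * n + 37 / 16 := by
    rw [mul_one_div, div_le_iff₀ (by positivity)]
    push_cast at hfn
    linarith
  have b3 : (G (n * w) - G (3 * w)) * (1 / (η * w)) ≤ 3 / η := by
    rw [mul_one_div, div_le_div_iff₀ (by positivity) hη]
    have h5 := mul_le_mul_of_nonneg_right hGn hη.le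
    have h6 := mul_nonneg hG0 hη.le
    linarith
  rw [e1, e2, e3] at hsum
  have : 20 / η = 20 / 3 * (3 / η) := by ring
  rw [this] at hn
  linarith

end Vale.Agent.P076.H307
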