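import Vale.Agent.P076.H307.QD
set_option autoImplicit false
open Finset
namespace Vale.Agent.P076.H307

/-- near-linearity of a window of small variance -/
theorem lin_window {f : ℕ → ℝ} {M w' i : ℕ} {η : ℝ} (hη : 0 < η) (hM : 16 / η ≤ M) (hw : 0 < w')
    (mono : ∀ s s', s ≤ s' → s' ≤ (i + 1) * (M * w') → f s ≤ f s')
    (hV : M * va f M w' i ≤ (η * (M * w' : ℕ) / 2) ^ 2) (hinc : inc f (M * w') i ≤ 4 * (M * w' : ℕ))
    {s' : ℕ} (h1 : i * (M * w') ≤ s') (h2 : s' ≤ (i + 1) * (M * w')) :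
    |f s' - f (i * (M * w')) - inc f (M * w') i / (M * w' : ℕ) * ((s' : ℝ) - (i * (M * w') : ℕ))| ≤ η * (M * w' : ℕ) := by
  have hMR : (0:ℝ) < M := lt_of_lt_of_le (by positivity) hM
  have hM0 : 0 < M := by exact_mod_cast hMR
  have hw'R : (0:ℝ) < w' := by exact_mod_cast hw
  have hwR : (0:ℝ) < (M * w' : ℕ) := by push_cast; positivity
  have ha0 : 0 ≤ inc f (M * w') i := by
    have := mono (i * (M * w')) ((i + 1) * (M * w')) (by gcongr; omega) le_rfl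
    rw [inc]; linarith
  have haM : inc f (M * w') i / M ≤ η * (M * w' : ℕ) / 4 := by
    rw [div_le_iff₀ hMR]
    have : 16 / η * (η * (M * w' : ℕ) / 4) ≤ M * (η * (M * w' : ℕ) / 4) := by gcongr
    have e : 16 / η * (η * (M * w' : ℕ) / 4) = 4 * (M * w' : ℕ) := by field_simp; ring
    linarith
  rcases eq_or_lt_of_le h2 with h2 | h2
  · rw [h2]
    have : f ((i + 1) * (M * w')) - f (i * (M * w')) - inc f (M * w') i / (M * w' : ℕ) *
        ((((i + 1) * (M * w') : ℕ) : ℝ) - (i * (M * w') : ℕ)) = 0 := by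
      rw [inc]
      have hne : ((M * w' : ℕ) : ℝ) ≠ 0 := hwR.ne'
      have : ((((i + 1) * (M * w') : ℕ) : ℝ) - (i * (M * w') : ℕ)) = (M * w' : ℕ) := by
        push_cast; ring
      rw [this, div_mul_cancel₀ _ hne]; ring
    rw [this, abs_zero]; positivity
  obtain ⟨x, rfl⟩ := Nat.exists_eq_add_of_le h1
  have hx : x < M * w' := by linarith
  set k := x / w' with hk
  have hkM : k < M := by rw [hk, Nat.div_lt_iff_lt_mul hw]; exact hx
  have hk1 : k * w' ≤ x := Nat.div_mul_le_self _ _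
  have hk2 : x < (k + 1) * w' := by
    have := Nat.lt_div_mul_add (a := x) (b := w') hw
    rw [← hk] at this; linarith
  have e0 : ∀ k, (i * M + k) * w' = i * (M * w') + k * w' := fun k => by ring
  have e0' : i * M * w' = i * (M * w') := by ring
  have l1 := lin_grid f (M := M) (w := w') (i := i) (k := k) hkM.le
  have l2 := lin_grid f (M := M) (w := w') (i := i) (k := k + 1) hkM
  rw [e0, e0'] at l1 l2
  have hs : Real.sqrt (M * va f M w' i) ≤ η * (M * w' : ℕ) / 2 := by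
    rw [Real.sqrt_le_left (by positivity)]; exact hV
  rw [abs_le] at l1 l2
  have m1 := mono (i * (M * w') + k * w') (i * (M * w') + x) (by omega) h2.le
  have hkw : (k + 1) * w' ≤ M * w' := Nat.mul_le_mul_right _ hkM
  have m2 := mono (i * (M * w') + x) (i * (M * w') + (k + 1) * w') (by omega) (by rw [Nat.succ_mul i]; omega)
  have c1 : inc f (M * w') i / (M * w' : ℕ) * (((i * (M * w') + x : ℕ) : ℝ) - (i * (M * w') : ℕ)) =
      inc f (M * w') i / (M * w' : ℕ) * x := by push_cast; ring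
  rw [c1]
  have c2 : inc f (M * w') i / (M * w' : ℕ) * (k * w' : ℕ) = k * (inc f (M * w') i / M) := by
    push_cast; field_simp
  have c3 : inc f (M * w') i / (M * w' : ℕ) * ((k + 1) * w' : ℕ) = (k + 1) * (inc f (M * w') i / M) := by
    push_cast; field_simp
  have c4 : inc f (M * w') i / (M * w' : ℕ) * (k * w' : ℕ) ≤ inc f (M * w') i / (M * w' : ℕ) * x := by
    gcongr
  have c5 : inc f (M * w') i / (M * w' : ℕ) * x ≤ inc f (M * w') i / (M * w' : ℕ) * ((k + 1) * w' : ℕ) := by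
    gcongr
  rw [c2] at c4
  rw [c3] at c5
  push_cast at l2
  rw [abs_le]
  constructor <;> linarith [l1.1, l1.2, l2.1, l2.2]

/-- units -/
theorem choose_uq {A K : ℕ} (hA0 : 0 < A) (hK : 200 * A ≤ K) :
    ∃ u q : ℕ, 100 ≤ u ∧ u * (2 * A) ≤ K ∧ K ≤ 4 * A * u ∧ 1 ≤ q ∧ 100 * q ≤ u ∧ K ≤ 800 * A * q := by
  have hu1 : 100 ≤ K / (2 * A) := by rw [Nat.le_div_iff_mul_le (by positivity)]; linarith
  have hu2 : K / (2 * A) * (2 * A) ≤ K := Nat.div_mul_le_self _ _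
  have hu3 : K < (K / (2 * A) + 1) * (2 * A) := by
    have := Nat.lt_div_mul_add (a := K) (b := 2 * A) (by positivity)
    linarith
  generalize K / (2 * A) = u at *
  have hq3 : u + 1 ≤ 200 * (u / 100) := by omega
  refine ⟨u, u / 100, hu1, hu2, ?_, by omega, by omega, ?_⟩
  · have : 2 * A * 1 ≤ 2 * A * u := by gcongr; omega
    linarith
  · have : (u + 1) * (2 * A) ≤ 200 * (u / 100) * (2 * A) := by gcongr
    have : 0 ≤ A * (u / 100) := by positivity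
    linarith

/-- the error in terms of the unit -/
theorem eps_le {A K q : ℕ} (hA0 : 0 < A) (hq1 : 1 ≤ q) (hqK : q ≤ K) (hKq : K ≤ 800 * A * q) {ε : ℝ}
    (hε : ε = 1 / (800 * (A:ℝ)) ^ 2 * K) : 0 ≤ ε ∧ ε * K ≤ q * q ∧ ε ≤ q := by
  have hAR : (0:ℝ) < A := by exact_mod_cast hA0
  have hqR : (1:ℝ) ≤ q := by exact_mod_cast hq1
  have hKq' : (K : ℝ) ≤ 800 * A * q := by exact_mod_cast hKq
  have hqK' : (q : ℝ) ≤ K := by exact_mod_cast hqK
  have hε0 : 0 ≤ ε := by rw [hε]; positivity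
  have hε1 : ε * K ≤ q * q := by
    rw [hε]
    have : 1 / (800 * (A:ℝ)) ^ 2 * K * K ≤ 1 / (800 * (A:ℝ)) ^ 2 * (800 * A * q) * (800 * A * q) := by gcongr
    refine this.trans (le_of_eq ?_)
    field_simp
  refine ⟨hε0, hε1, ?_⟩
  have h1 : ε * q ≤ q * q := le_trans (by gcongr) hε1
  exact le_of_mul_le_mul_right h1 (by linarith)

/-- the energy of the finest tiling -/
theorem en_le {K A u : ℕ} {f : ℕ → ℝ} {ε : ℝ} (hu : 0 < u) (hεu : ε ≤ u) (hK : u * (2 * A) ≤ K)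
    (mono : ∀ s s', s ≤ s' → s' ≤ 2 * K → f s ≤ f s')
    (lip : ∀ s s', s ≤ s' → s' ≤ 2 * K → f s' - f s ≤ 3 * ((s' : ℝ) - s) + ε) :
    en f (2 * u) A ≤ 16 * (A * (2 * u)) := by
  rw [en]
  calc ∑ i ∈ range A, inc f (2 * u) i ^ 2 / (2 * u : ℕ) ≤ ∑ i ∈ range A, 16 * (2 * (u : ℝ)) := by
        refine sum_le_sum fun i hi => ?_
        rw [mem_range] at hi
        have hle0 : (i + 1) * (2 * u) ≤ A * (2 * u) := by gcongr; omega
        have hle : (i + 1) * (2 * u) ≤ 2 * K := by linarith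
        have b0 : 0 ≤ inc f (2 * u) i := by
          have := mono (i * (2 * u)) ((i + 1) * (2 * u)) (by gcongr; omega) hle
          rw [inc]; linarith
        have b1 : inc f (2 * u) i ≤ 4 * (2 * u) := by
          have := lip (i * (2 * u)) ((i + 1) * (2 * u)) (by gcongr; omega) hle
          rw [inc]; push_cast at this
          linarith
        push_cast
        rw [div_le_iff₀ (by positivity)]
        have := mul_le_mul b1 b1 b0 (by positivity)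
        linarith
    _ = _ := by rw [sum_const, card_range, nsmul_eq_mul]; ring

/-- a good window among `n` windows of length `w = 2 M v` -/
theorem one_scale {η : ℝ} (hη : 0 < η) {M J n v u q K : ℕ} {f : ℕ → ℝ} {G : ℕ → ℕ → ℝ} {ε : ℝ} (hM0 : 0 < M)
    (hM : 16 / η ≤ M) (hJ : 1280 / η ^ 2 ≤ J) (hn : 100 + 20 / η ≤ n) (hv0 : 0 < v) (hvu : u ≤ v)
    (hq1 : 1 ≤ q) (hq2 : 100 * q ≤ u) (hnwK : n * (M * (2 * v)) ≤ K) (hε0 : 0 ≤ ε) (hε1 : ε * K ≤ q * q) (hεq : ε ≤ q)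
    (hf0 : 0 ≤ f 0) (mono : ∀ s s', s ≤ s' → s' ≤ 2 * K → f s ≤ f s')
    (lip : ∀ s s', s ≤ s' → s' ≤ 2 * K → f s' - f s ≤ 3 * ((s' : ℝ) - s) + ε)
    (gr : ∀ s, s ≤ 2 * K → f s ≤ 2 * s + ε) (top : 3 * (K : ℝ) ≤ f (2 * K))
    (G0 : ∀ d s, d ≤ K → s ≤ 2 * K → 0 ≤ G d s) (G1 : ∀ d s, 1 ≤ d → 2 * q ≤ d → d ≤ K → s ≤ 2 * K → G d s ≤ 3 * d)
    (Gm : ∀ d s s', d ≤ K → s ≤ s' → s' ≤ 2 * K → G d s ≤ G d s')
    (J1 : ∀ b h r : ℕ, b ≤ K → h ≤ b → 2 * r ≤ h → ε < f (2 * b) - f (2 * b - 2 * r) →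
        (h : ℝ) - 6 * r - ε ≤ f (2 * b) - f (2 * b - h))
    (hV : ∑ i ∈ range n, va f M (2 * v) i / (2 * v : ℕ) ≤ 16 * (n * (M * (2 * v : ℕ))) / J) :
    ∃ (s : ℕ) (ρ : ℝ), 4 * (M * (2 * v)) ≤ s ∧ s ≤ K ∧ 3 / 10 ≤ ρ ∧ ρ ≤ 17 / 20 ∧
        (∀ s', s - M * (2 * v) ≤ s' → s' ≤ s →
          |f s' - f (s - M * (2 * v)) - 3 * ρ * ((s' : ℝ) - (s - M * (2 * v) : ℕ))| ≤ η * (M * (2 * v) : ℕ)) ∧
        G (M * (2 * v)) s - G (M * (2 * v)) (s - M * (2 * v)) ≤ η * (M * (2 * v) : ℕ) := by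
  have hn0 : 0 < n := by
    have : (0:ℝ) < n := lt_of_lt_of_le (by positivity) hn
    exact_mod_cast this
  have hvw : 2 * v ≤ M * (2 * v) := by
    calc 2 * v = 1 * (2 * v) := by ring
      _ ≤ M * (2 * v) := by gcongr; omega
  have e2b' : ∀ i, 2 * ((i + 1) * (M * v)) = (i + 1) * (M * (2 * v)) := fun i => by ring
  have e2c : 2 * (2 * (M * v)) = 2 * (M * (2 * v)) := by ring
  obtain ⟨w, hw⟩ : ∃ w, w = M * (2 * v) := ⟨_, rfl⟩
  rw [← hw] at hnwK hvw ⊢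
  have hw0 : 0 < w := by omega
  have hwR : (0:ℝ) < w := by exact_mod_cast hw0
  have hwK : w ≤ K := le_trans (Nat.le_mul_of_pos_left _ hn0) hnwK
  have hqw : (200:ℝ) * q ≤ w := by
    have : 200 * q ≤ w := by omega
    exact_mod_cast this
  have hεw : ε ≤ w := by
    have : (0:ℝ) ≤ q := by positivity
    linarith
  have h3n : 3 ≤ n := by
    have : (3:ℝ) ≤ n := by
      have : 0 < 20 / η := by positivity
      linarith
    exact_mod_cast this
  have h3w : 3 * w ≤ n * w := by gcongr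
  have hlow : ∀ i, 3 ≤ i → i < n → 9 / 10 * ((M * (2 * v) : ℕ) : ℝ) ≤ inc f (M * (2 * v)) i := by
    intro i hi3 hin
    have e2b := e2b' i
    rw [← hw] at e2b ⊢
    have h4 : 4 * (M * v) ≤ (i + 1) * (M * v) := by gcongr; omega
    have h5 : (i + 1) * w ≤ n * w := by gcongr; omega
    have hs := slope_ge (N := K) (h := w) (q := q) (b := (i + 1) * (M * v)) hε0 mono lip gr top J1
      (by rw [hw]; linarith) (by rw [e2b]; omega) hq1 (by omega) hε1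
    rw [e2b] at hs
    have e3 : (i + 1) * w - w = i * w := by rw [Nat.succ_mul]; omega
    rw [e3] at hs
    rw [inc]
    linarith
  obtain ⟨i, hi3, hin, hva, hinc, hstab⟩ := exists_window f (G w) (M := M) (w' := 2 * v) (n := n) (J := J) hη hM0
    (by positivity) hJ hn hV hlow
    (hf0.trans (mono _ _ (Nat.zero_le _) (by rw [← hw]; omega)))
    (by
      have := gr (n * w) (by omega)
      rw [← hw]; linarith)
    (fun s s' h1 h2 => Gm w s s' hwK h1 (h2.trans (by rw [← hw]; omega)))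
    (G0 w _ hwK (by rw [← hw]; omega)) (by rw [← hw]; exact G1 w _ (by omega) (by omega) hwK (by omega))
  have hlo := hlow i hi3 hin
  have hiw : (i + 1) * w ≤ n * w := by gcongr; omega
  have e3 : (i + 1) * w - w = i * w := by rw [Nat.succ_mul]; omega
  have hlin := fun s' h1 h2 => lin_window (s' := s') hη hM (w' := 2 * v) (by positivity) (i := i)
      (fun s s' h1 h2 => mono s s' h1 (h2.trans (by rw [← hw]; omega))) hva (by linarith) h1 h2
  rw [← hw] at hva hinc hstab hlo hlin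
  refine ⟨(i + 1) * w, inc f w i / (3 * w), by gcongr; omega, hiw.trans hnwK, ?_, ?_, ?_, ?_⟩
  · rw [le_div_iff₀ (by positivity)]; linarith
  · rw [div_le_iff₀ (by positivity)]; linarith
  · intro s' h1 h2
    rw [e3] at h1 ⊢
    have := hlin s' h1 h2
    have e : 3 * (inc f w i / (3 * w)) = inc f w i / w := by field_simp
    rw [e]; exact this
  · rw [e3]; exact hstab

/-- quantitative differentiation, in the units of the levels -/
theorem qdf {η : ℝ} (hη : 0 < η) :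
    ∃ (h0 κ : ℝ) (K0 : ℕ), 0 < h0 ∧ 0 < κ ∧ ∀ (K : ℕ) (f : ℕ → ℝ) (G : ℕ → ℕ → ℝ), K0 ≤ K → 0 ≤ f 0 →
      (∀ s s', s ≤ s' → s' ≤ 2 * K → f s ≤ f s') →
      (∀ s s', s ≤ s' → s' ≤ 2 * K → f s' - f s ≤ 3 * ((s' : ℝ) - s) + κ * K) →
      (∀ s, s ≤ 2 * K → f s ≤ 2 * s + κ * K) → 3 * (K : ℝ) ≤ f (2 * K) →
      (∀ d s, d ≤ K → s ≤ 2 * K → 0 ≤ G d s) → (∀ d s, d ≤ K → s ≤ 2 * K → G d s ≤ 2 * d + κ * K) →
      (∀ d s s', d ≤ K → s ≤ s' → s' ≤ 2 * K → G d s ≤ G d s') →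
      (∀ b h r : ℕ, b ≤ K → h ≤ b → 2 * r ≤ h → κ * K < f (2 * b) - f (2 * b - 2 * r) →
        (h : ℝ) - 6 * r - κ * K ≤ f (2 * b) - f (2 * b - h)) →
      ∃ (w s : ℕ) (ρ : ℝ), h0 * K ≤ w ∧ 4 * w ≤ s ∧ s ≤ K ∧ 3 / 10 ≤ ρ ∧ ρ ≤ 17 / 20 ∧
        (∀ s', s - w ≤ s' → s' ≤ s → |f s' - f (s - w) - 3 * ρ * ((s' : ℝ) - (s - w : ℕ))| ≤ η * w) ∧
        G w s - G w (s - w) ≤ η * w := by
  obtain ⟨M, hMdef⟩ : ∃ M, M = ⌈16 / η⌉₊ := ⟨_, rfl⟩
  obtain ⟨J, hJdef⟩ : ∃ J, J = ⌈1280 / η ^ 2⌉₊ := ⟨_, rfl⟩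
  obtain ⟨N, hNdef⟩ : ∃ N, N = ⌈100 + 20 / η⌉₊ := ⟨_, rfl⟩
  have hM : 16 / η ≤ M := by rw [hMdef]; exact Nat.le_ceil _
  have hJ : 1280 / η ^ 2 ≤ J := by rw [hJdef]; exact Nat.le_ceil _
  have hN : 100 + 20 / η ≤ N := by rw [hNdef]; exact Nat.le_ceil _
  have hM0 : 0 < M := by rw [hMdef]; exact Nat.ceil_pos.2 (by positivity)
  have hJ0 : 0 < J := by rw [hJdef]; exact Nat.ceil_pos.2 (by positivity)
  have hN0 : 0 < N := by rw [hNdef]; exact Nat.ceil_pos.2 (by positivity)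
  clear hMdef hJdef hNdef
  have hA0 : 0 < N * M ^ J := by positivity
  refine ⟨1 / (2 * (N * M ^ J : ℕ)), 1 / (800 * (N * M ^ J : ℕ)) ^ 2, 200 * (N * M ^ J), by positivity, by positivity, ?_⟩
  intro K f G hK hf0 mono lip gr top G0 G1 Gm J1
  obtain ⟨u, q, hu1, hu2, hu3, hq1, hq2, hq3⟩ := choose_uq hA0 hK
  have hAu : u * 1 ≤ u * (2 * (N * M ^ J)) := by gcongr; omega
  obtain ⟨ε, hε⟩ : ∃ ε, ε = 1 / (800 * ((N * M ^ J : ℕ):ℝ)) ^ 2 * K := ⟨_, rfl⟩
  rw [← hε] at lip gr G1 J1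
  obtain ⟨hε0, hε1, hεq⟩ := eps_le hA0 hq1 (by omega) hq3 hε
  have hqu : (q:ℝ) ≤ u := by exact_mod_cast (by omega : q ≤ u)
  have hB := en_le (A := N * M ^ J) (u := u) (by omega) (hεq.trans hqu) hu2 mono lip
  obtain ⟨j, hj, hV⟩ := exists_scale f (M := M) (u := 2 * u) (N := N) (J := J) hM0 (by omega) hJ0 hB
  have hpos : 0 < M ^ (J - (j + 1)) := by positivity
  have ew : 2 * u * M ^ (J - (j + 1)) = 2 * (u * M ^ (J - (j + 1))) := by ring
  have hMJ : M ^ J = M ^ j * M * M ^ (J - (j + 1)) := by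
    rw [← pow_succ, ← pow_add]; congr 1; omega
  have enw : N * M ^ j * (M * (2 * (u * M ^ (J - (j + 1))))) = N * M ^ J * (2 * u) := by rw [hMJ]; ring
  rw [ew] at hV
  generalize hP : M ^ (J - (j + 1)) = P at *
  have hvu : u ≤ u * P := Nat.le_mul_of_pos_right _ hpos
  have hnN : N ≤ N * M ^ j := Nat.le_mul_of_pos_right _ (by positivity)
  have hnNR : (N : ℝ) ≤ (N * M ^ j : ℕ) := by exact_mod_cast hnN
  have enwR : ((N * M ^ j : ℕ) : ℝ) * (M * (2 * (u * P) : ℕ)) = (N * M ^ J : ℕ) * (2 * u) := by exact_mod_cast enw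
  obtain ⟨s, ρ, h1, h2, h3, h4, h5, h6⟩ := one_scale (K := K) (q := q) hη hM0 hM hJ (n := N * M ^ j) (v := u * P) (u := u)
    (hN.trans hnNR) (by positivity) hvu hq1 hq2 (by rw [enw]; linarith) hε0 hε1 hεq hf0 mono lip gr top G0
    (fun d s hd hqd hdK hs => by
      have h1 := G1 d s hdK hs
      have h2 : (2:ℝ) * q ≤ d := by exact_mod_cast hqd
      have h3 : (0:ℝ) ≤ q := by positivity
      linarith) Gm J1 (by rw [enwR]; exact hV)
  refine ⟨M * (2 * (u * P)), s, ρ, ?_, h1, h2, h3, h4, h5, h6⟩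
  rw [div_mul_eq_mul_div, div_le_iff₀ (by positivity)]
  have h7 : 1 * (2 * u) ≤ M * (2 * (u * P)) := by gcongr; omega
  have h8 : K ≤ M * (2 * (u * P)) * (2 * (N * M ^ J)) := by
    calc K ≤ 4 * (N * M ^ J) * u := hu3
      _ = 1 * (2 * u) * (2 * (N * M ^ J)) := by ring
      _ ≤ _ := by gcongr
  have h9 : (K : ℝ) ≤ (M * (2 * (u * P)) * (2 * (N * M ^ J)) : ℕ) := by exact_mod_cast h8
  push_cast at h9 ⊢
  linarith

end Vale.Agent.P076.H307
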